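import Vale.Agent.P181.DU.H244.Fib
import Vale.Agent.P181.DX.Defs

set_option autoImplicit false

/-!
# P181, DX (helper244): the flow `FlowX`
-/

namespace Vale.Agent.P181.DU.O244

open Vale.Agent.P181.DG
open Vale.Agent.P181.DU.S317
open Vale.Agent.P181.SZC1 (double_count card_values blk blk_ge blk_lt blk_disj card_blk
  card_not_mem)

theorem mem_KT {w S : ℕ} (hS : 1 ≤ S) {k : Multiset ℕ} :
    k ∈ KT w S ↔ k.sum ≤ w ∧ ∀ x ∈ k, S ≤ x := by
  unfold KT
  simp only [Finset.mem_biUnion, Finset.mem_range, Finset.mem_filter, Finset.mem_image,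
    Finset.mem_univ, true_and]
  constructor
  · rintro ⟨u, hu, ⟨p, rfl⟩, h⟩
    exact ⟨by rw [p.parts_sum]; omega, h⟩
  · rintro ⟨h1, h2⟩
    exact ⟨k.sum, by omega, ⟨⟨k, fun {x} hx => by have := h2 x hx; omega, rfl⟩, rfl⟩, h2⟩

theorem div_le {c M₁ M₂ A B : ℕ} (h : M₁ * A ≤ M₂ * B) (hc : c * M₂ ≤ M₁) (h0 : 0 < M₂) :
    c * A ≤ B := by
  refine Nat.le_of_mul_le_mul_left ?_ h0
  calc M₂ * (c * A) = (c * M₂) * A := by ring
    _ ≤ M₁ * A := Nat.mul_le_mul_right _ hc
    _ ≤ M₂ * B := h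

/-- the numbers -/
theorem numbers {a J S K X w s P h Q H : ℕ} (hK : 2 ≤ K) (hKX : 5 * (K + 1) ≤ X) (hX : 32 ≤ X)
    (hXS : X ≤ S) (hw : w * X ^ 2 ≤ S ^ 2)
    (hJ : (2 * K + 5) * S ≤ J) (hJa : J + 1 ≤ a) (hw4 : w * X ^ 4 ≤ S * a)
    (h100 : 100 * (K * S) ≤ a) (hs : s = S / (K + 1)) (hP : P = w / S) (hh : h = a / 2)
    (hQ : Q = w / h) (hH : H = a / 4) :
    X * P ≤ s - 4 * P ∧ 32 * (K + 1) * (Q * X) ≤ s - 4 * P ∧ X * Q ≤ S ∧ 200 * S ≤ a ∧
      H ≤ 2 * (H - X * Q) ∧ 1 ≤ H - X * Q := by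
  have hS0 : 0 < S := by omega
  have h200 : 200 * S ≤ a := by
    have : 2 * S ≤ K * S := Nat.mul_le_mul_right _ hK
    omega
  have hPS : P * S ≤ w := by rw [hP]; exact Nat.div_mul_le_self _ _
  have hQh : Q * h ≤ w := by rw [hQ]; exact Nat.div_mul_le_self _ _
  have hh0 : 0 < h := by omega
  have hah : a ≤ 3 * h := by omega
  have hXP : P * X ^ 2 ≤ S := by
    have h1 : P * X ^ 2 * S ≤ S * S := by
      calc P * X ^ 2 * S = P * S * X ^ 2 := by ring
        _ ≤ w * X ^ 2 := Nat.mul_le_mul_right _ hPS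
        _ ≤ S ^ 2 := hw
        _ = S * S := by ring
    exact Nat.le_of_mul_le_mul_right h1 hS0
  have hXQ : Q * X ^ 4 ≤ 3 * S := by
    have h1 : Q * X ^ 4 * h ≤ 3 * S * h := by
      calc Q * X ^ 4 * h = Q * h * X ^ 4 := by ring
        _ ≤ w * X ^ 4 := Nat.mul_le_mul_right _ hQh
        _ ≤ S * a := hw4
        _ ≤ S * (3 * h) := Nat.mul_le_mul_left _ hah
        _ = 3 * S * h := by ring
    exact Nat.le_of_mul_le_mul_right h1 hh0
  have hX2 : 32 * X ≤ X ^ 2 := by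
    calc 32 * X ≤ X * X := Nat.mul_le_mul_right _ hX
      _ = X ^ 2 := by ring
  -- `X P`
  have e1 : X * P ≤ s - 4 * P := by
    have h1 : (X + 4) * P ≤ s := by
      rw [hs, Nat.le_div_iff_mul_le (by omega)]
      calc (X + 4) * P * (K + 1) = ((X + 4) * (K + 1)) * P := by ring
        _ ≤ X ^ 2 * P := by
            refine Nat.mul_le_mul_right _ ?_
            have h2 : (X + 4) * (K + 1) * 5 ≤ X ^ 2 * 5 := by
              calc (X + 4) * (K + 1) * 5 = (X + 4) * (5 * (K + 1)) := by ring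
                _ ≤ (X + 4) * X := Nat.mul_le_mul_left _ hKX
                _ ≤ (X * 5) * X := Nat.mul_le_mul_right _ (by omega)
                _ = X ^ 2 * 5 := by ring
            omega
        _ = P * X ^ 2 := by ring
        _ ≤ S := hXP
    have h2 : (X + 4) * P = X * P + 4 * P := by ring
    omega
  -- `32 (K + 1) Q X`
  have hQX3 : 32 * (Q * X ^ 3) ≤ 3 * S := by
    calc 32 * (Q * X ^ 3) ≤ X * (Q * X ^ 3) := Nat.mul_le_mul_right _ hX
      _ = Q * X ^ 4 := by ring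
      _ ≤ 3 * S := hXQ
  have hKK : 25 * (K + 1) ^ 2 ≤ X ^ 2 := by
    calc 25 * (K + 1) ^ 2 = (5 * (K + 1)) ^ 2 := by ring
      _ ≤ X ^ 2 := Nat.pow_le_pow_left hKX 2
  have e2 : 32 * (K + 1) * (Q * X) ≤ s - 4 * P := by
    have h1 : 32 * (K + 1) * (Q * X) + 4 * P ≤ s := by
      rw [hs, Nat.le_div_iff_mul_le (by omega)]
      have h3 : 25 * (32 * (K + 1) * (Q * X) * (K + 1)) ≤ 3 * S := by
        calc 25 * (32 * (K + 1) * (Q * X) * (K + 1)) = 25 * (K + 1) ^ 2 * (32 * (Q * X)) := by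
              ring
          _ ≤ X ^ 2 * (32 * (Q * X)) := Nat.mul_le_mul_right _ hKK
          _ = 32 * (Q * X ^ 3) := by ring
          _ ≤ 3 * S := hQX3
      have h4 : 5 * (4 * P * (K + 1)) ≤ S := by
        calc 5 * (4 * P * (K + 1)) = 4 * P * (5 * (K + 1)) := by ring
          _ ≤ 4 * P * X := Nat.mul_le_mul_left _ hKX
          _ = P * (4 * X) := by ring
          _ ≤ P * X ^ 2 := Nat.mul_le_mul_left _ (by omega)
          _ ≤ S := hXP
      have h5 : (32 * (K + 1) * (Q * X) + 4 * P) * (K + 1) =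
          32 * (K + 1) * (Q * X) * (K + 1) + 4 * P * (K + 1) := by ring
      omega
    omega
  have e3 : X * Q ≤ S := by
    have h1 : 32 * (X * Q) ≤ 32 * (Q * X ^ 3) := by
      refine Nat.mul_le_mul_left _ ?_
      calc X * Q = Q * X * 1 := by ring
        _ ≤ Q * X * X ^ 2 := Nat.mul_le_mul_left _ (Nat.one_le_pow _ _ (by omega))
        _ = Q * X ^ 3 := by ring
    omega
  refine ⟨e1, e2, e3, h200, by omega, by omega⟩

open scoped Classical in
/-- **(X7)**. -/
theorem flowX : DX.FlowX := by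
  classical
  intro g a b J S K X w hg hsh hK hS hKX hX hXS hw hwX hJ hJa hw4 hw3 h100 hab hbX
  obtain ⟨s, hs⟩ : ∃ s, s = S / (K + 1) := ⟨_, rfl⟩
  obtain ⟨P, hP⟩ : ∃ P, P = w / S := ⟨_, rfl⟩
  obtain ⟨h, hh⟩ : ∃ h, h = a / 2 := ⟨_, rfl⟩
  obtain ⟨Q, hQ⟩ : ∃ Q, Q = w / h := ⟨_, rfl⟩
  obtain ⟨H, hH⟩ : ∃ H, H = a / 4 := ⟨_, rfl⟩
  obtain ⟨z, hz⟩ : ∃ z, b = a + z := ⟨b - a, by omega⟩
  obtain ⟨n1, n2, n3, n4, n5, n6⟩ :=
    numbers hK hKX hX hXS hw hJ hJa hw4 h100 hs hP hh hQ hH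
  have hsS : s * (K + 1) ≤ S := by rw [hs]; exact Nat.div_mul_le_self _ _
  have hPS : P * S ≤ w := by rw [hP]; exact Nat.div_mul_le_self _ _
  have hPw : P ≤ w := by rw [hP]; exact Nat.div_le_self _ _
  have hzX : z ≤ X := by omega
  have hzQ : z * Q ≤ X * Q := Nat.mul_le_mul_right _ hzX
  obtain ⟨V, hV⟩ : ∃ V, V = KT w S ×ˢ Finset.range (a + 2) := ⟨_, rfl⟩
  obtain ⟨Bad, hBad⟩ : ∃ Bad, Bad = V.filter (BadW a b J) := ⟨_, rfl⟩
  obtain ⟨G, hG⟩ : ∃ G, G = V.filter (GoodW a b) := ⟨_, rfl⟩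
  rw [← hV, ← hBad, ← hG]
  have hmV : ∀ p : Multiset ℕ × ℕ, p ∈ V ↔ (p.1.sum ≤ w ∧ ∀ x ∈ p.1, S ≤ x) ∧ p.2 < a + 2 := by
    intro p
    rw [hV, Finset.mem_product, mem_KT (by omega), Finset.mem_range]
  have hvals : ∀ p ∈ Bad, (p.1.sum ≤ w ∧ ∀ x ∈ p.1, S ≤ x) ∧ BadW a b J p := by
    intro p hp
    rw [hBad, Finset.mem_filter, hmV] at hp
    exact ⟨hp.1.1, hp.2⟩
  -- if there are no bad states
  by_cases hTe : Bad = ∅
  · rw [hTe, Finset.sum_empty]
    omega
  obtain ⟨p₁, hp₁⟩ := Finset.nonempty_iff_ne_empty.2 hTe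
  have haw : a < w := by
    obtain ⟨x, hx, hxa⟩ := (hvals p₁ hp₁).2.1
    have h1 := Multiset.le_sum_of_mem hx
    have h2 := (hvals p₁ hp₁).1.1
    omega
  have hP1 : 1 ≤ P := by
    rw [hP, Nat.le_div_iff_mul_le (by omega)]
    omega
  have hQ1 : 1 ≤ Q := by
    rw [hQ, Nat.le_div_iff_mul_le (by omega)]
    omega
  have hKS : 2 * (K + 1) * S + 3 * S ≤ J := by
    have : (2 * K + 5) * S = 2 * (K + 1) * S + 3 * S := by ring
    omega
  -- the letter
  have hlet : ∀ p : Multiset ℕ × ℕ, ∃ y : ℕ, p ∈ Bad → y ∈ p.1 ∧ a < y := by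
    intro p
    by_cases hp : p ∈ Bad
    · obtain ⟨y, h1, h2⟩ := (hvals p hp).2.1
      exact ⟨y, fun _ => ⟨h1, h2⟩⟩
    · exact ⟨0, fun h => absurd h hp⟩
  choose y hy using hlet
  have hyb : ∀ p ∈ Bad, y p ≤ b := fun p hp => (hvals p hp).2.2.1 _ (hy p hp).1
  have hcard : ∀ k : Multiset ℕ, k.sum ≤ w → (k.toFinset.filter (S ≤ ·)).card ≤ P := by
    intro k hk
    rw [hP, Nat.le_div_iff_mul_le (by omega)]
    exact (card_values k S).trans hk
  have hcardQ : ∀ k : Multiset ℕ, k.sum ≤ w → (k.toFinset.filter (h ≤ ·)).card ≤ Q := by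
    intro k hk
    rw [hQ, Nat.le_div_iff_mul_le (by omega)]
    exact (card_values k h).trans hk
  have hers : ∀ p ∈ Bad, p.1 = y p ::ₘ p.1.erase (y p) ∧ (p.1.erase (y p)).sum ≤ w := by
    intro p hp
    have h1 := Multiset.cons_erase (hy p hp).1
    refine ⟨h1.symm, ?_⟩
    have h2 : p.1.sum = y p + (p.1.erase (y p)).sum := by
      conv_lhs => rw [← h1]
      rw [Multiset.sum_cons]
    have := (hvals p hp).1.1
    omega
  have hcu : ∀ p ∈ Bad, ∀ θ, a - H < θ → z * Multiset.card (up (p.1.erase (y p)) θ) ≤ S := by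
    intro p hp θ hθ
    have h1 : Multiset.card (up (p.1.erase (y p)) θ) ≤ Q := by
      rw [hQ, Nat.le_div_iff_mul_le (by omega)]
      exact (card_up_le (by omega)).trans (hers p hp).2
    exact (Nat.mul_le_mul_left _ h1).trans (hzQ.trans n3)
  have hgap : ∀ p ∈ Bad, H - X * Q ≤ (gaps (p.1.erase (y p)) z (a - H) a).card := by
    intro p hp
    have h1 := card_gaps (k := p.1.erase (y p)) (z := z) (lo := a - H) (hi := a) (h := h)
      (Q := Q) (by omega) (hcardQ _ (hers p hp).2)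
    omega
  have hHa : a - (a - H) = H := by omega
  -- the general step
  have step : ∀ (B : Finset (Multiset ℕ × ℕ)) (n M : ℕ) (D : Multiset ℕ × ℕ → ℕ), B ⊆ Bad →
      n ≤ K → (∀ p ∈ B, D p ≤ y p ∧ 2 * (n + 1) * S + 3 * S ≤ y p - D p ∧
        (D p = 0 ∨ 2 ≤ D p ∧ p.2 ≤ y p - D p) ∧ p.2 + D p ≤ a ∧
        Multiset.card p.1 + p.2 + (n + 1) + D p = a + 1) →
      (∀ p' : Multiset ℕ × ℕ, p'.1.sum ≤ w →
        ((B.sigma fun p => Fc n S s z (a - H) a p.1 (p.1.erase (y p)) (y p - D p)).filter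
          fun p => tg z (y p.1) (D p.1) p.1.2 (p.1.1.erase (y p.1)) p.2 = p').card ≤ M) →
      ((H - X * Q) * (s - 4 * P) ^ (n + 1)) * ∑ p ∈ B, g p.1 p.2 ≤ M * ∑ p ∈ G, g p.1 p.2 := by
    intro B n M D hB hn hD hM
    have hsn : s * (n + 1) ≤ S :=
      (Nat.mul_le_mul_left _ (by omega)).trans hsS
    refine double_count B G (fun p => Fc n S s z (a - H) a p.1 (p.1.erase (y p)) (y p - D p))
      (fun p c => tg z (y p) (D p) p.2 (p.1.erase (y p)) c) (fun p => g p.1 p.2) _ _ ?_ ?_ ?_ ?_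
    · intro p hp
      have hpB := hB hp
      obtain ⟨d1, d2, d3, d4, d5⟩ := hD p hp
      exact (Nat.mul_le_mul_right _ (hgap p hpB)).trans
        (card_Fc (hvals p hpB).1.2 (fun x hx => Multiset.mem_of_mem_erase hx)
          (hcard _ (hvals p hpB).1.1) hsn (by omega))
    · intro p hp c hc
      have hpB := hB hp
      obtain ⟨d1, d2, d3, d4, d5⟩ := hD p hp
      obtain ⟨⟨v1, v2⟩, v3, v4, v5, v6, v7⟩ := hvals p hpB
      have h1 := tg_good (a := a) (b := b) (w := w) (t := p.2) (hers p hpB).1 v2 v4 v1 hsn d2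
        (by omega) le_rfl hz (by omega) (by omega) d5 d4 (hcu p hpB) hc
      rw [hG, Finset.mem_filter, hmV]
      exact ⟨⟨h1.1, h1.2.1⟩, h1.2.2⟩
    · intro p hp c hc
      have hpB := hB hp
      obtain ⟨d1, d2, d3, d4, d5⟩ := hD p hp
      obtain ⟨⟨v1, v2⟩, v3, v4, v5, v6, v7⟩ := hvals p hpB
      exact tg_le hg hsh (hers p hpB).1 hsn (by omega) v6 d1 d2 d3 (by omega) (hcu p hpB) hc
    · intro p' hp'
      rw [hG, Finset.mem_filter, hmV] at hp'
      exact hM p' hp'.1.1.1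
  -- the low class
  obtain ⟨BA, hBA⟩ : ∃ BA, BA = Bad.filter fun p => Multiset.card p.1 + p.2 + K + 1 ≤ a :=
    ⟨_, rfl⟩
  obtain ⟨n, hn⟩ : ∃ n, K = n + 1 := ⟨K - 1, by omega⟩
  have hA : 4 * ∑ p ∈ BA, g p.1 p.2 ≤ ∑ p ∈ G, g p.1 p.2 := by
    have hBAs : ∀ p ∈ BA, p ∈ Bad ∧ Multiset.card p.1 + p.2 + K + 1 ≤ a := by
      intro p hp
      rw [hBA, Finset.mem_filter] at hp
      exact hp
    have hfacts : ∀ p ∈ BA, a + 1 - (Multiset.card p.1 + p.2) - K ≤ y p ∧
        2 * (n + 1) * S + 3 * S ≤ y p - (a + 1 - (Multiset.card p.1 + p.2) - K) ∧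
        (a + 1 - (Multiset.card p.1 + p.2) - K = 0 ∨
          2 ≤ a + 1 - (Multiset.card p.1 + p.2) - K ∧
            p.2 ≤ y p - (a + 1 - (Multiset.card p.1 + p.2) - K)) ∧
        p.2 + (a + 1 - (Multiset.card p.1 + p.2) - K) ≤ a ∧
        Multiset.card p.1 + p.2 + (n + 1) + (a + 1 - (Multiset.card p.1 + p.2) - K) = a + 1 := by
      intro p hp
      obtain ⟨h1, h2⟩ := hBAs p hp
      obtain ⟨-, v3, v4, v5, v6, v7⟩ := hvals p h1
      have h3 := (hy p h1).2
      have h4 : 2 * (n + 1) * S ≤ 2 * (K + 1) * S := Nat.mul_le_mul_right _ (by omega)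
      refine ⟨by omega, by omega, Or.inr ⟨by omega, by omega⟩, by omega, by omega⟩
    have h1 := step BA n (H * (P ^ n * (P * (P * (a + 2)))))
      (fun p => a + 1 - (Multiset.card p.1 + p.2) - K) (fun p hp => (hBAs p hp).1) (by omega)
      hfacts ?_
    · refine div_le h1 ?_ ?_
      · have h2 : (X * P) ^ (n + 1) ≤ (s - 4 * P) ^ (n + 1) := Nat.pow_le_pow_left n1 _
        have h3 : 8 * (P ^ n * (P * (P * (a + 2)))) ≤ (X * P) ^ (n + 1) := by
          rw [mul_pow]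
          calc 8 * (P ^ n * (P * (P * (a + 2)))) = (4 * (P * (2 * (a + 2)))) * P ^ (n + 1) := by
                ring
            _ ≤ (4 * ((w + 1) * (a + 2) ^ 2)) * P ^ (n + 1) := by
                refine Nat.mul_le_mul_right _ (Nat.mul_le_mul_left _
                  (Nat.mul_le_mul (by omega) ?_))
                calc 2 * (a + 2) ≤ (a + 2) * (a + 2) := Nat.mul_le_mul_right _ (by omega)
                  _ = (a + 2) ^ 2 := by ring
            _ ≤ X ^ (n + 1) * P ^ (n + 1) := by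
                refine Nat.mul_le_mul_right _ ?_
                rw [← hn]
                exact hwX
        calc 4 * (H * (P ^ n * (P * (P * (a + 2)))))
            ≤ 4 * ((2 * (H - X * Q)) * (P ^ n * (P * (P * (a + 2))))) :=
              Nat.mul_le_mul_left _ (Nat.mul_le_mul_right _ n5)
          _ = (H - X * Q) * (8 * (P ^ n * (P * (P * (a + 2))))) := by ring
          _ ≤ (H - X * Q) * (s - 4 * P) ^ (n + 1) :=
              Nat.mul_le_mul_left _ (h3.trans h2)
      · have : 0 < H := by omega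
        exact Nat.mul_pos this (Nat.mul_pos (Nat.pow_pos hP1)
          (Nat.mul_pos hP1 (Nat.mul_pos hP1 (by omega))))
    · intro p' hp'
      have h2 := fibre_A (n := n) (S := S) (s := s) (z := z) (lo := a - H) (hi := a)
        (Bad := BA) (P := P) (a := a) (y := y)
        (D := fun p => a + 1 - (Multiset.card p.1 + p.2) - K)
        ((Nat.mul_le_mul_left _ (by omega)).trans hsS) (by omega) (fun p hp => by
          obtain ⟨d1, d2, d3, d4, d5⟩ := hfacts p hp
          exact ⟨(hy p (hBAs p hp).1).1, d1, d2, by omega, hcu p (hBAs p hp).1⟩) p'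
        (hcard _ hp')
      rw [hHa] at h2
      exact h2
  -- the high classes
  have hB : ∀ i, i ≤ K → 16 * (K + 1) *
      ∑ p ∈ Bad.filter (fun p => Multiset.card p.1 + p.2 + i = a), g p.1 p.2 ≤
        ∑ p ∈ G, g p.1 p.2 := by
    intro i hi
    have hBs : ∀ p ∈ Bad.filter (fun p => Multiset.card p.1 + p.2 + i = a), p ∈ Bad ∧
        Multiset.card p.1 + p.2 + i = a := fun p hp => Finset.mem_filter.1 hp
    have h4 : 2 * (i + 1) * S ≤ 2 * (K + 1) * S := Nat.mul_le_mul_right _ (by omega)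
    have hfacts : ∀ p ∈ Bad.filter (fun p => Multiset.card p.1 + p.2 + i = a), 0 ≤ y p ∧
        2 * (i + 1) * S + 3 * S ≤ y p - 0 ∧ ((0 : ℕ) = 0 ∨ 2 ≤ 0 ∧ p.2 ≤ y p - 0) ∧
        p.2 + 0 ≤ a ∧ Multiset.card p.1 + p.2 + (i + 1) + 0 = a + 1 := by
      intro p hp
      obtain ⟨h1, h2⟩ := hBs p hp
      obtain ⟨-, v3, v4, v5, v6, v7⟩ := hvals p h1
      have h3 := (hy p h1).2
      refine ⟨by omega, by omega, Or.inl rfl, by omega, by omega⟩
    have h1 := step (Bad.filter (fun p => Multiset.card p.1 + p.2 + i = a)) i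
      (H * (P ^ i * (Q * z))) (fun _ => 0) (fun p hp => (hBs p hp).1) hi hfacts ?_
    · refine div_le h1 ?_ ?_
      · have h5 : P ≤ s - 4 * P := (Nat.le_mul_of_pos_left _ (by omega)).trans n1
        have h2 : P ^ i ≤ (s - 4 * P) ^ i := Nat.pow_le_pow_left h5 _
        calc 16 * (K + 1) * (H * (P ^ i * (Q * z)))
            ≤ 16 * (K + 1) * ((2 * (H - X * Q)) * (P ^ i * (Q * X))) :=
              Nat.mul_le_mul_left _ (Nat.mul_le_mul n5 (Nat.mul_le_mul_left _
                (Nat.mul_le_mul_left _ hzX)))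
          _ = (H - X * Q) * (P ^ i * (32 * (K + 1) * (Q * X))) := by ring
          _ ≤ (H - X * Q) * ((s - 4 * P) ^ i * (s - 4 * P)) :=
              Nat.mul_le_mul_left _ (Nat.mul_le_mul h2 n2)
          _ = (H - X * Q) * (s - 4 * P) ^ (i + 1) := by rw [pow_succ]
      · have : 0 < H := by omega
        exact Nat.mul_pos this (Nat.mul_pos (Nat.pow_pos hP1)
          (Nat.mul_pos hQ1 (by omega)))
    · intro p' hp'
      have h7 : 2 * (i + 1) * S ≤ 6 * (K * S) := by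
        calc 2 * (i + 1) * S ≤ 2 * (3 * K) * S := Nat.mul_le_mul_right _ (by omega)
          _ = 6 * (K * S) := by ring
      have h2 := fibre_B (n := i) (S := S) (s := s) (z := z) (lo := a - H) (hi := a)
        (Bad := Bad.filter (fun p => Multiset.card p.1 + p.2 + i = a)) (P := P) (Q := Q)
        (h := h) (a := a) (b := b) (y := y) (D := fun _ => 0)
        ((Nat.mul_le_mul_left _ (by omega)).trans hsS) (by omega) (fun p hp => by
          obtain ⟨d1, d2, d3, d4, d5⟩ := hfacts p hp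
          have h3 := (hy p (hBs p hp).1).2
          exact ⟨(hy p (hBs p hp).1).1, rfl, d2, by omega,
            ⟨h3, hyb p (hBs p hp).1⟩, hcu p (hBs p hp).1⟩) p'
        (hcard _ hp') (hcardQ _ hp')
      rw [hHa] at h2
      have h6 : b - a = z := by omega
      rw [h6] at h2
      exact h2
  -- the sum
  have hsplit : ∑ p ∈ Bad, g p.1 p.2 ≤ ∑ p ∈ BA, g p.1 p.2 +
      ∑ i ∈ Finset.range (K + 1),
        ∑ p ∈ Bad.filter (fun p => Multiset.card p.1 + p.2 + i = a), g p.1 p.2 := by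
    have h1 : Bad ⊆ BA ∪ (Finset.range (K + 1)).biUnion fun i =>
        Bad.filter (fun p => Multiset.card p.1 + p.2 + i = a) := by
      intro p hp
      rw [Finset.mem_union, hBA, Finset.mem_filter]
      obtain ⟨-, v3, v4, v5, v6, v7⟩ := hvals p hp
      by_cases h2 : Multiset.card p.1 + p.2 + K + 1 ≤ a
      · exact Or.inl ⟨hp, h2⟩
      · right
        rw [Finset.mem_biUnion]
        refine ⟨a - (Multiset.card p.1 + p.2), Finset.mem_range.2 (by omega), ?_⟩
        rw [Finset.mem_filter]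
        exact ⟨hp, by omega⟩
    calc ∑ p ∈ Bad, g p.1 p.2
        ≤ ∑ p ∈ BA ∪ (Finset.range (K + 1)).biUnion fun i =>
            Bad.filter (fun p => Multiset.card p.1 + p.2 + i = a), g p.1 p.2 :=
          Finset.sum_le_sum_of_subset h1
      _ ≤ ∑ p ∈ BA, g p.1 p.2 + ∑ p ∈ (Finset.range (K + 1)).biUnion fun i =>
            Bad.filter (fun p => Multiset.card p.1 + p.2 + i = a), g p.1 p.2 := by
          rw [← Finset.sum_union_inter]
          exact Nat.le_add_right _ _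
      _ ≤ _ := by
          refine Nat.add_le_add_left ?_ _
          refine le_of_eq (Finset.sum_biUnion ?_)
          intro i _ j _ hij
          simp only [Function.onFun]
          rw [Finset.disjoint_left]
          intro p hp hp'
          rw [Finset.mem_filter] at hp hp'
          omega
  have hBsum : 16 * ∑ i ∈ Finset.range (K + 1),
      ∑ p ∈ Bad.filter (fun p => Multiset.card p.1 + p.2 + i = a), g p.1 p.2 ≤
        ∑ p ∈ G, g p.1 p.2 := by
    refine Nat.le_of_mul_le_mul_left ?_ (Nat.succ_pos K)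
    calc (K + 1) * (16 * ∑ i ∈ Finset.range (K + 1),
          ∑ p ∈ Bad.filter (fun p => Multiset.card p.1 + p.2 + i = a), g p.1 p.2)
        = ∑ i ∈ Finset.range (K + 1), 16 * (K + 1) *
            ∑ p ∈ Bad.filter (fun p => Multiset.card p.1 + p.2 + i = a), g p.1 p.2 := by
          rw [← Finset.mul_sum]
          ring
      _ ≤ ∑ _i ∈ Finset.range (K + 1), ∑ p ∈ G, g p.1 p.2 := by
          refine Finset.sum_le_sum fun i hi => hB i ?_
          have := Finset.mem_range.1 hi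
          omega
      _ = (K + 1) * ∑ p ∈ G, g p.1 p.2 := by
          rw [Finset.sum_const, Finset.card_range, smul_eq_mul]
  omega

end Vale.Agent.P181.DU.O244
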