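import Vale.Agent.P181.DU.One
import Vale.Agent.P181.SZC1.Flow

set_option autoImplicit false

/-!
# P181, DO (helper244): the choices of the flow `FlowO`
-/

namespace Vale.Agent.P181.DU.O244

open Vale.Agent.P181.SZC1 (double_count card_values blk blk_ge blk_lt blk_disj card_blk
  card_not_mem)

/-- the choices of the codes, the receptacle `c.2` lies in the highest block -/
noncomputable def cho (n S s e : ℕ) (k r : Multiset ℕ) (v : ℕ) : Finset (Σ _ : Fin n → ℕ, ℕ) :=
  open scoped Classical in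
  (Fintype.piFinset fun q : Fin n => (blk S s q).filter (· ∉ k)).sigma fun f =>
    (blk S s n).filter fun u => u ∉ k ∧ u + e ∉ k ∧ v - (u + ∑ q, f q) ∉ r

theorem mem_cho {n S s e v : ℕ} {k r : Multiset ℕ} {c : Σ _ : Fin n → ℕ, ℕ} :
    c ∈ cho n S s e k r v ↔ (∀ q : Fin n, c.1 q ∈ blk S s q ∧ c.1 q ∉ k) ∧ c.2 ∈ blk S s n ∧
      c.2 ∉ k ∧ c.2 + e ∉ k ∧ v - (c.2 + ∑ q, c.1 q) ∉ r := by
  classical
  unfold cho
  simp only [Finset.mem_sigma, Fintype.mem_piFinset, Finset.mem_filter]

theorem sum_cho {n S s e v : ℕ} {k r : Multiset ℕ} {c : Σ _ : Fin n → ℕ, ℕ}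
    (hsS : s * (n + 1) ≤ S) (hc : c ∈ cho n S s e k r v) :
    c.2 + ∑ q, c.1 q ≤ 2 * (n + 1) * S := by
  rw [mem_cho] at hc
  have h1 := blk_lt (K := n + 1) hc.2.1 (by omega) hsS
  have h2 : ∑ q, c.1 q ≤ n * (2 * S) := by
    calc ∑ q, c.1 q ≤ ∑ _q : Fin n, 2 * S := by
          refine Finset.sum_le_sum fun q _ => ?_
          exact (blk_lt (K := n + 1) (hc.1 q).1 (by omega) hsS).le
      _ = n * (2 * S) := by simp
  have h3 : 2 * (n + 1) * S = 2 * S + n * (2 * S) := by ring
  omega

/-- lower bound for the number of choices -/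
theorem card_cho {n S s e P v : ℕ} {k r : Multiset ℕ}
    (hP : (k.toFinset.filter (S ≤ ·)).card ≤ P) (hr : r.toFinset.card ≤ 2 * P)
    (hs : s * (n + 1) ≤ S) (hv : 2 * (n + 1) * S ≤ v) :
    (s - 4 * P) ^ (n + 1) ≤ (cho n S s e k r v).card := by
  classical
  unfold cho
  rw [Finset.card_sigma]
  have hsum : ∀ f ∈ Fintype.piFinset fun q : Fin n => (blk S s q).filter (· ∉ k),
      ∑ q, f q ≤ n * (2 * S) := by
    intro f hf
    rw [Fintype.mem_piFinset] at hf
    calc ∑ q, f q ≤ ∑ _q : Fin n, 2 * S := by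
          refine Finset.sum_le_sum fun q _ => ?_
          have h1 := (Finset.mem_filter.1 (hf q)).1
          exact (blk_lt (K := n + 1) h1 (by omega) hs).le
      _ = n * (2 * S) := by simp
  have hone : ∀ f ∈ Fintype.piFinset fun q : Fin n => (blk S s q).filter (· ∉ k),
      s - 4 * P ≤ ((blk S s n).filter fun u => u ∉ k ∧ u + e ∉ k ∧
        v - (u + ∑ q, f q) ∉ r).card := by
    intro f hf
    have hSig := hsum f hf
    have h4 : 2 * (n + 1) * S = n * (2 * S) + 2 * S := by ring
    have hA1 : ((blk S s n).filter fun u => u ∈ k).card ≤ P := by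
      refine (Finset.card_le_card ?_).trans hP
      intro u hu
      rw [Finset.mem_filter] at hu ⊢
      exact ⟨Multiset.mem_toFinset.2 hu.2, blk_ge hu.1⟩
    have hA2 : ((blk S s n).filter fun u => u + e ∈ k).card ≤ P := by
      refine (Finset.card_le_card_of_injOn (fun u => u + e) ?_ ?_).trans hP
      · intro u hu
        rw [Finset.mem_coe, Finset.mem_filter] at hu
        rw [Finset.mem_coe, Finset.mem_filter, Multiset.mem_toFinset]
        have := blk_ge hu.1
        refine ⟨hu.2, ?_⟩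
        show S ≤ u + e
        omega
      · intro u _ u' _ huu
        simp only at huu
        omega
    have hA3 : ((blk S s n).filter fun u => v - (u + ∑ q, f q) ∈ r).card ≤ 2 * P := by
      refine (Finset.card_le_card_of_injOn (fun u => v - (u + ∑ q, f q)) ?_ ?_).trans hr
      · intro u hu
        rw [Finset.mem_coe, Finset.mem_filter] at hu
        rw [Finset.mem_coe, Multiset.mem_toFinset]
        exact hu.2
      · intro u hu u' hu' huu
        rw [Finset.mem_coe, Finset.mem_filter] at hu hu'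
        have h3 := blk_lt (K := n + 1) hu.1 (by omega) hs
        have h3' := blk_lt (K := n + 1) hu'.1 (by omega) hs
        simp only at huu
        omega
    have hcov : blk S s n ⊆ ((blk S s n).filter fun u => u ∉ k ∧ u + e ∉ k ∧
        v - (u + ∑ q, f q) ∉ r) ∪ (((blk S s n).filter fun u => u ∈ k) ∪
          (((blk S s n).filter fun u => u + e ∈ k) ∪
            ((blk S s n).filter fun u => v - (u + ∑ q, f q) ∈ r))) := by
      intro u hu
      simp only [Finset.mem_union, Finset.mem_filter]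
      tauto
    have h5 := Finset.card_le_card hcov
    rw [card_blk] at h5
    have h6 := Finset.card_union_le ((blk S s n).filter fun u => u ∉ k ∧ u + e ∉ k ∧
        v - (u + ∑ q, f q) ∉ r) (((blk S s n).filter fun u => u ∈ k) ∪
          (((blk S s n).filter fun u => u + e ∈ k) ∪
            ((blk S s n).filter fun u => v - (u + ∑ q, f q) ∈ r)))
    have h7 := Finset.card_union_le ((blk S s n).filter fun u => u ∈ k)
          (((blk S s n).filter fun u => u + e ∈ k) ∪
            ((blk S s n).filter fun u => v - (u + ∑ q, f q) ∈ r))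
    have h8 := Finset.card_union_le ((blk S s n).filter fun u => u + e ∈ k)
            ((blk S s n).filter fun u => v - (u + ∑ q, f q) ∈ r)
    omega
  calc (s - 4 * P) ^ (n + 1) = (s - 4 * P) ^ n * (s - 4 * P) := pow_succ _ _
    _ ≤ (Fintype.piFinset fun q : Fin n => (blk S s q).filter (· ∉ k)).card * (s - 4 * P) := by
        refine Nat.mul_le_mul_right _ ?_
        rw [Fintype.card_piFinset]
        calc (s - 4 * P) ^ n = ∏ _q : Fin n, (s - 4 * P) := by simp
          _ ≤ ∏ q : Fin n, ((blk S s q).filter (· ∉ k)).card := by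
              refine Finset.prod_le_prod' fun q _ => ?_
              have := card_not_mem (S := S) (s := s) (q := q) hP
              omega
    _ = ∑ _f ∈ Fintype.piFinset fun q : Fin n => (blk S s q).filter (· ∉ k),
          (s - 4 * P) := by rw [Finset.sum_const, smul_eq_mul]
    _ ≤ _ := Finset.sum_le_sum hone

/-- the gaps: no letter of `k` in `(θ - z, θ]` -/
noncomputable def gaps (k : Multiset ℕ) (z lo hi : ℕ) : Finset ℕ :=
  open scoped Classical in
  (Finset.Ioc lo hi).filter fun θ => ∀ x ∈ k, ¬ (θ < x + z ∧ x ≤ θ)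

theorem mem_gaps {k : Multiset ℕ} {z lo hi θ : ℕ} :
    θ ∈ gaps k z lo hi ↔ (lo < θ ∧ θ ≤ hi) ∧ ∀ x ∈ k, ¬ (θ < x + z ∧ x ≤ θ) := by
  classical
  unfold gaps
  rw [Finset.mem_filter, Finset.mem_Ioc]

theorem card_gaps {k : Multiset ℕ} {z lo hi h Q : ℕ} (hlo : h + z ≤ lo)
    (hQ : (k.toFinset.filter (h ≤ ·)).card ≤ Q) :
    hi - lo ≤ (gaps k z lo hi).card + z * Q := by
  classical
  have h1 : Finset.Ioc lo hi ⊆ gaps k z lo hi ∪
      (k.toFinset.filter (h ≤ ·)).biUnion fun x => Finset.Ico x (x + z) := by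
    intro θ hθ
    rw [Finset.mem_Ioc] at hθ
    rw [Finset.mem_union, mem_gaps]
    by_cases hg : ∀ x ∈ k, ¬ (θ < x + z ∧ x ≤ θ)
    · exact Or.inl ⟨hθ, hg⟩
    · right
      push Not at hg
      obtain ⟨x, hx, hx1, hx2⟩ := hg
      rw [Finset.mem_biUnion]
      exact ⟨x, Finset.mem_filter.2 ⟨Multiset.mem_toFinset.2 hx, by omega⟩,
        Finset.mem_Ico.2 ⟨hx2, hx1⟩⟩
  have h2 := Finset.card_le_card h1
  rw [Nat.card_Ioc] at h2
  have h3 := Finset.card_union_le (gaps k z lo hi)
    ((k.toFinset.filter (h ≤ ·)).biUnion fun x => Finset.Ico x (x + z))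
  have h4 : ((k.toFinset.filter (h ≤ ·)).biUnion fun x => Finset.Ico x (x + z)).card ≤
      z * Q := by
    refine (Finset.card_biUnion_le).trans ?_
    calc ∑ x ∈ k.toFinset.filter (h ≤ ·), (Finset.Ico x (x + z)).card
        = ∑ _x ∈ k.toFinset.filter (h ≤ ·), z := by
          refine Finset.sum_congr rfl fun x _ => ?_
          rw [Nat.card_Ico]
          omega
      _ = (k.toFinset.filter (h ≤ ·)).card * z := by rw [Finset.sum_const, smul_eq_mul]
      _ ≤ Q * z := Nat.mul_le_mul_right _ hQ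
      _ = z * Q := mul_comm _ _
  omega

/-- the lowered letters -/
noncomputable def up (k : Multiset ℕ) (θ : ℕ) : Multiset ℕ := k.filter (θ < ·)

/-- the letters which stay -/
noncomputable def dwn (k : Multiset ℕ) (θ : ℕ) : Multiset ℕ := k.filter (fun x => ¬ θ < x)

theorem up_add_dwn (k : Multiset ℕ) (θ : ℕ) : up k θ + dwn k θ = k := by
  unfold up dwn
  exact Multiset.filter_add_not _ _

theorem mem_up {k : Multiset ℕ} {θ x : ℕ} : x ∈ up k θ ↔ x ∈ k ∧ θ < x := by
  unfold up
  rw [Multiset.mem_filter]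

theorem mem_dwn {k : Multiset ℕ} {θ x : ℕ} : x ∈ dwn k θ ↔ x ∈ k ∧ x ≤ θ := by
  unfold dwn
  rw [Multiset.mem_filter, not_lt]

theorem card_up_le {k : Multiset ℕ} {θ h : ℕ} (hh : h ≤ θ) :
    Multiset.card (up k θ) * h ≤ k.sum := by
  have h1 : Multiset.card (up k θ) • h ≤ (up k θ).sum := by
    refine Multiset.card_nsmul_le_sum fun x hx => ?_
    have := (mem_up.1 hx).2
    omega
  have h2 : k.sum = (up k θ).sum + (dwn k θ).sum := by
    conv_lhs => rw [← up_add_dwn k θ]
    rw [Multiset.sum_add]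
  rw [smul_eq_mul] at h1
  omega

theorem core {z θ u₁ u₂ : ℕ} {k₁ k₂ C : Multiset ℕ} (hC : ∀ x ∈ C, x + z ≤ θ)
    (hg₁ : ∀ x ∈ k₁, ¬ (θ < x + z ∧ x ≤ θ)) (hg₂ : ∀ x ∈ k₂, ¬ (θ < x + z ∧ x ≤ θ))
    (hu₁ : u₁ + z * Multiset.card (up k₁ θ) + z ≤ θ)
    (hu₂ : u₂ + z * Multiset.card (up k₂ θ) + z ≤ θ)
    (h : (u₁ + z * Multiset.card (up k₁ θ)) ::ₘ (C + ((up k₁ θ).map (· - z) + dwn k₁ θ)) =
      (u₂ + z * Multiset.card (up k₂ θ)) ::ₘ (C + ((up k₂ θ).map (· - z) + dwn k₂ θ)))
    (hu : u₁ = u₂ ∨ u₁ + z * Multiset.card (up k₁ θ) = u₂ + z * Multiset.card (up k₂ θ)) :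
    k₁ = k₂ ∧ u₁ = u₂ := by
  have hf : ∀ (u : ℕ) (k : Multiset ℕ), (∀ x ∈ k, ¬ (θ < x + z ∧ x ≤ θ)) →
      u + z * Multiset.card (up k θ) + z ≤ θ →
      Multiset.filter (fun x => θ < x + z) ((u + z * Multiset.card (up k θ)) ::ₘ
        (C + ((up k θ).map (· - z) + dwn k θ))) = (up k θ).map (· - z) := by
    intro u k hg hu
    rw [Multiset.filter_cons_of_neg _ (by omega), Multiset.filter_add, Multiset.filter_add]
    have e1 : Multiset.filter (fun x => θ < x + z) C = 0 := by
      rw [Multiset.filter_eq_nil]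
      intro x hx
      have := hC x hx
      omega
    have e2 : Multiset.filter (fun x => θ < x + z) ((up k θ).map (· - z)) =
        (up k θ).map (· - z) := by
      rw [Multiset.filter_eq_self]
      intro x hx
      rw [Multiset.mem_map] at hx
      obtain ⟨y, hy, rfl⟩ := hx
      have := (mem_up.1 hy).2
      omega
    have e3 : Multiset.filter (fun x => θ < x + z) (dwn k θ) = 0 := by
      rw [Multiset.filter_eq_nil]
      intro x hx hx'
      have h1 := mem_dwn.1 hx
      exact hg x h1.1 ⟨hx', h1.2⟩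
    rw [e1, e2, e3, zero_add, add_zero]
  have hback : ∀ k : Multiset ℕ, ((up k θ).map (· - z)).map (· + z) = up k θ := by
    intro k
    rw [Multiset.map_map]
    conv_rhs => rw [← Multiset.map_id (up k θ)]
    refine Multiset.map_congr rfl fun x hx => ?_
    have := (mem_up.1 hx).2
    simp only [Function.comp_apply, id_eq]
    omega
  have h1 := congrArg (Multiset.filter (fun x => θ < x + z)) h
  rw [hf u₁ k₁ hg₁ hu₁, hf u₂ k₂ hg₂ hu₂] at h1
  have h2 : up k₁ θ = up k₂ θ := by
    rw [← hback k₁, h1, hback k₂]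
  rw [← h2] at h hu
  have h3 : u₁ = u₂ := by
    rcases hu with hu | hu
    · exact hu
    · omega
  subst h3
  rw [Multiset.cons_inj_right, add_right_inj, add_right_inj] at h
  refine ⟨?_, rfl⟩
  rw [← up_add_dwn k₁ θ, h2, h, up_add_dwn]

end Vale.Agent.P181.DU.O244
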