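import Vale.Agent.P181.DU.H244.Mov

set_option autoImplicit false

/-!
# P181, DX (helper244): the fibres of the move
-/

namespace Vale.Agent.P181.DU.O244

open Vale.Agent.P181.DG
open Vale.Agent.P181.DU.S317
open Vale.Agent.P181.SZC1 (double_count card_values blk blk_ge blk_lt blk_disj card_blk
  card_not_mem)

section
variable {n S s z lo hi : ℕ}

/-- the recovery of the source -/
theorem recover {y₁ D₁ t₁ y₂ D₂ t₂ : ℕ} {k₁ k₂ r₁ r₂ : Multiset ℕ}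
    {c₁ c₂ : Σ _ : ℕ, (Σ _ : Fin n → ℕ, ℕ)} (hsS : s * (n + 1) ≤ S)
    (hv₁ : 2 * (n + 1) * S + 3 * S ≤ y₁ - D₁) (hv₂ : 2 * (n + 1) * S + 3 * S ≤ y₂ - D₂)
    (hlo : 3 * S + z ≤ lo)
    (hcu₁ : ∀ θ, lo < θ → z * Multiset.card (up r₁ θ) ≤ S)
    (hcu₂ : ∀ θ, lo < θ → z * Multiset.card (up r₂ θ) ≤ S)
    (hc₁ : c₁ ∈ Fc n S s z lo hi k₁ r₁ (y₁ - D₁)) (hc₂ : c₂ ∈ Fc n S s z lo hi k₂ r₂ (y₂ - D₂))
    (hθ : c₁.1 = c₂.1) (hf : c₁.2.1 = c₂.2.1)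
    (hx : y₁ - D₁ - (c₁.2.2 + ∑ q, c₁.2.1 q) = y₂ - D₂ - (c₂.2.2 + ∑ q, c₂.2.1 q))
    (hu : c₁.2.2 = c₂.2.2 ∨ c₁.2.2 + z * Multiset.card (up r₁ c₁.1) =
      c₂.2.2 + z * Multiset.card (up r₂ c₂.1))
    (ht : (tg z y₁ D₁ t₁ r₁ c₁).1 = (tg z y₂ D₂ t₂ r₂ c₂).1) : r₁ = r₂ ∧ c₁ = c₂ := by
  obtain ⟨⟨f1, f2⟩, f3, f4, ⟨f5, f6, f7, f8, f9⟩, ⟨f10, f11, f12, f13⟩⟩ :=
    facts hsS hv₁ hcu₁ hc₁
  obtain ⟨-, g3, -, ⟨-, -, -, g8, -⟩, -⟩ := facts hsS hv₂ hcu₂ hc₂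
  obtain ⟨θ, ⟨f, u⟩⟩ := c₁
  obtain ⟨θ₂, ⟨f₂, u₂⟩⟩ := c₂
  simp only at hθ hf
  subst hθ
  subst hf
  simp only at f1 f2 f3 f4 f5 f6 f7 f8 f9 f10 f11 f12 f13 g3 g8 hx hu
  unfold tg at ht
  simp only at ht
  rw [hx, Multiset.cons_inj_right] at ht
  obtain ⟨h1, h2⟩ := core (fun x hx => by
    obtain ⟨q, rfl⟩ := mem_codes hx
    have := f4 q
    omega) f3 g3 (by omega) (by omega) ht hu
  subst h2
  exact ⟨h1, rfl⟩

/-- the letters of the target -/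
theorem tg_mem {y D t : ℕ} {k k₀ : Multiset ℕ} {c : Σ _ : ℕ, (Σ _ : Fin n → ℕ, ℕ)} :
    (∀ q, c.2.1 q ∈ (tg z y D t k₀ c).1) ∧
      c.2.2 + z * Multiset.card (up k₀ c.1) ∈ (tg z y D t k₀ c).1 ∧
      y - D - (c.2.2 + ∑ q, c.2.1 q) ∈ (tg z y D t k₀ c).1 := by
  unfold tg
  simp only
  refine ⟨fun q => ?_, ?_, Multiset.mem_cons_self _ _⟩
  · refine Multiset.mem_cons_of_mem (Multiset.mem_cons_of_mem (Multiset.mem_add.2 (Or.inl ?_)))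
    exact Multiset.mem_map.2 ⟨q, Finset.mem_def.1 (Finset.mem_univ q), rfl⟩
  · exact Multiset.mem_cons_of_mem (Multiset.mem_cons_self _ _)

theorem card_pi {P : ℕ} {k' : Multiset ℕ} (hP : (k'.toFinset.filter (S ≤ ·)).card ≤ P) :
    open scoped Classical in
    (Fintype.piFinset fun q : Fin n => (blk S s q).filter (· ∈ k')).card ≤ P ^ n := by
  classical
  have hc1 : ∀ q, ((blk S s q).filter (· ∈ k')).card ≤ P := by
    intro q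
    refine (Finset.card_le_card ?_).trans hP
    intro u hu
    rw [Finset.mem_filter] at hu ⊢
    exact ⟨Multiset.mem_toFinset.2 hu.2, blk_ge hu.1⟩
  rw [Fintype.card_piFinset]
  calc ∏ q : Fin n, ((blk S s q).filter (· ∈ k')).card ≤ ∏ _q : Fin n, P :=
        Finset.prod_le_prod' fun q _ => hc1 _
    _ = P ^ n := by simp

open scoped Classical in
/-- the fibres, with units -/
theorem fibre_A {Bad : Finset (Multiset ℕ × ℕ)} {P a : ℕ} {y D : Multiset ℕ × ℕ → ℕ}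
    (hsS : s * (n + 1) ≤ S) (hlo : 3 * S + z ≤ lo)
    (hy : ∀ p ∈ Bad, y p ∈ p.1 ∧ D p ≤ y p ∧ 2 * (n + 1) * S + 3 * S ≤ y p - D p ∧
      D p < a + 2 ∧ ∀ θ, lo < θ → z * Multiset.card (up (p.1.erase (y p)) θ) ≤ S)
    (p' : Multiset ℕ × ℕ) (hP : (p'.1.toFinset.filter (S ≤ ·)).card ≤ P) :
    ((Bad.sigma fun p => Fc n S s z lo hi p.1 (p.1.erase (y p)) (y p - D p)).filter
      fun p => tg z (y p.1) (D p.1) p.1.2 (p.1.1.erase (y p.1)) p.2 = p').card ≤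
        (hi - lo) * (P ^ n * (P * (P * (a + 2)))) := by
  have hU : (Finset.Ioc lo hi ×ˢ ((Fintype.piFinset fun q : Fin n =>
      (blk S s q).filter (· ∈ p'.1)) ×ˢ ((p'.1.toFinset.filter (S ≤ ·)) ×ˢ
        ((p'.1.toFinset.filter (S ≤ ·)) ×ˢ Finset.range (a + 2))))).card ≤
      (hi - lo) * (P ^ n * (P * (P * (a + 2)))) := by
    rw [Finset.card_product, Finset.card_product, Finset.card_product, Finset.card_product,
      Finset.card_range, Nat.card_Ioc]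
    exact Nat.mul_le_mul_left _ (Nat.mul_le_mul (card_pi hP) (Nat.mul_le_mul hP
      (Nat.mul_le_mul_right _ hP)))
  refine (Finset.card_le_card_of_injOn
    (fun p => (p.2.1, (p.2.2.1, (p.2.2.2 + z * Multiset.card (up (p.1.1.erase (y p.1)) p.2.1),
      (y p.1 - D p.1 - (p.2.2.2 + ∑ q, p.2.2.1 q), D p.1))))) ?_ ?_).trans hU
  · intro p hp
    rw [Finset.mem_coe, Finset.mem_filter, Finset.mem_sigma] at hp
    obtain ⟨⟨hp1, hp2⟩, hp3⟩ := hp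
    obtain ⟨-, -, hy3, hy4, hy5⟩ := hy _ hp1
    obtain ⟨⟨f1, f2⟩, f3, f4, ⟨f5, f6, f7, f8, f9⟩, ⟨f10, f11, f12, f13⟩⟩ :=
      facts hsS hy3 hy5 hp2
    obtain ⟨m1, m2, m3⟩ := tg_mem (z := z) (y := y p.1) (D := D p.1) (t := p.1.2)
      (k := p.1.1) (k₀ := p.1.1.erase (y p.1)) (c := p.2)
    rw [hp3] at m1 m2 m3
    rw [Finset.mem_coe, Finset.mem_product, Finset.mem_product, Finset.mem_product,
      Finset.mem_product, Finset.mem_Ioc, Fintype.mem_piFinset, Finset.mem_range]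
    refine ⟨⟨f1, f2⟩, fun q => ?_, ?_, ?_, hy4⟩
    · rw [Finset.mem_filter]
      rw [mem_Fc, mem_cho] at hp2
      exact ⟨(hp2.2.1 q).1, m1 q⟩
    · rw [Finset.mem_filter, Multiset.mem_toFinset]
      refine ⟨m2, ?_⟩
      show S ≤ p.2.2.2 + z * Multiset.card (up (p.1.1.erase (y p.1)) p.2.1)
      omega
    · rw [Finset.mem_filter, Multiset.mem_toFinset]
      refine ⟨m3, ?_⟩
      show S ≤ y p.1 - D p.1 - (p.2.2.2 + ∑ q, p.2.2.1 q)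
      omega
  · intro p hp p₂ hp₂ hpp
    rw [Finset.mem_coe, Finset.mem_filter, Finset.mem_sigma] at hp hp₂
    obtain ⟨⟨hp1, hp2⟩, hp3⟩ := hp
    obtain ⟨⟨hq1, hq2⟩, hq3⟩ := hp₂
    obtain ⟨hy1, hy2, hy3, hy4, hy5⟩ := hy _ hp1
    obtain ⟨hz1, hz2, hz3, hz4, hz5⟩ := hy _ hq1
    have hs1 := (facts hsS hy3 hy5 hp2).2.2.2.2.2.1
    have hs2 := (facts hsS hz3 hz5 hq2).2.2.2.2.2.1
    obtain ⟨⟨k, t⟩, c⟩ := p
    obtain ⟨⟨k₂, t₂⟩, c₂⟩ := p₂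
    simp only [Prod.mk.injEq] at hpp
    obtain ⟨e1, e2, e3, e4, e5⟩ := hpp
    simp only at hp1 hq1 hp2 hq2 hp3 hq3 hy1 hy2 hy3 hy4 hy5 hz1 hz2 hz3 hz4 hz5
    simp only at hs1 hs2 e1 e2 e3 e4 e5
    have h3 := hp3.trans hq3.symm
    obtain ⟨r1, r2⟩ := recover hsS hy3 hz3 hlo hy5 hz5 hp2 hq2 e1 e2 e4 (Or.inr e3)
      (congrArg Prod.fst h3)
    subst r2
    have h4 : t + D (k, t) = t₂ + D (k₂, t₂) := congrArg Prod.snd h3
    have h5 : y (k, t) = y (k₂, t₂) := by omega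
    have h6 : k = k₂ := by
      rw [← Multiset.cons_erase hy1, ← Multiset.cons_erase hz1, r1, h5]
    have h7 : t = t₂ := by omega
    subst h6
    subst h7
    rfl

open scoped Classical in
/-- the fibres, without units -/
theorem fibre_B {Bad : Finset (Multiset ℕ × ℕ)} {P Q h a b : ℕ} {y D : Multiset ℕ × ℕ → ℕ}
    (hsS : s * (n + 1) ≤ S) (hlo : 3 * S + z ≤ lo)
    (hy : ∀ p ∈ Bad, y p ∈ p.1 ∧ D p = 0 ∧ 2 * (n + 1) * S + 3 * S ≤ y p - D p ∧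
      2 * (n + 1) * S + h ≤ y p ∧
      (a < y p ∧ y p ≤ b) ∧ ∀ θ, lo < θ → z * Multiset.card (up (p.1.erase (y p)) θ) ≤ S)
    (p' : Multiset ℕ × ℕ) (hP : (p'.1.toFinset.filter (S ≤ ·)).card ≤ P)
    (hQ : (p'.1.toFinset.filter (h ≤ ·)).card ≤ Q) :
    ((Bad.sigma fun p => Fc n S s z lo hi p.1 (p.1.erase (y p)) (y p - D p)).filter
      fun p => tg z (y p.1) (D p.1) p.1.2 (p.1.1.erase (y p.1)) p.2 = p').card ≤
        (hi - lo) * (P ^ n * (Q * (b - a))) := by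
  have hU : (Finset.Ioc lo hi ×ˢ ((Fintype.piFinset fun q : Fin n =>
      (blk S s q).filter (· ∈ p'.1)) ×ˢ
        ((p'.1.toFinset.filter (h ≤ ·)) ×ˢ Finset.Ioc a b))).card ≤
      (hi - lo) * (P ^ n * (Q * (b - a))) := by
    rw [Finset.card_product, Finset.card_product, Finset.card_product, Nat.card_Ioc,
      Nat.card_Ioc]
    exact Nat.mul_le_mul_left _ (Nat.mul_le_mul (card_pi hP) (Nat.mul_le_mul_right _ hQ))
  refine (Finset.card_le_card_of_injOn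
    (fun p => (p.2.1, (p.2.2.1, (y p.1 - D p.1 - (p.2.2.2 + ∑ q, p.2.2.1 q), y p.1)))) ?_
      ?_).trans hU
  · intro p hp
    rw [Finset.mem_coe, Finset.mem_filter, Finset.mem_sigma] at hp
    obtain ⟨⟨hp1, hp2⟩, hp3⟩ := hp
    obtain ⟨-, hyD, hy3, hyh, hy4, hy5⟩ := hy _ hp1
    have hsc := sum_cho hsS (mem_Fc.1 hp2).2
    obtain ⟨⟨f1, f2⟩, f3, f4, ⟨f5, f6, f7, f8, f9⟩, ⟨f10, f11, f12, f13⟩⟩ :=
      facts hsS hy3 hy5 hp2
    obtain ⟨m1, m2, m3⟩ := tg_mem (z := z) (y := y p.1) (D := D p.1) (t := p.1.2)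
      (k := p.1.1) (k₀ := p.1.1.erase (y p.1)) (c := p.2)
    rw [hp3] at m1 m2 m3
    rw [Finset.mem_coe, Finset.mem_product, Finset.mem_product, Finset.mem_product,
      Finset.mem_Ioc, Finset.mem_Ioc, Fintype.mem_piFinset]
    refine ⟨⟨f1, f2⟩, fun q => ?_, ?_, hy4⟩
    · rw [Finset.mem_filter]
      rw [mem_Fc, mem_cho] at hp2
      exact ⟨(hp2.2.1 q).1, m1 q⟩
    · rw [Finset.mem_filter, Multiset.mem_toFinset]
      refine ⟨m3, ?_⟩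
      show h ≤ y p.1 - D p.1 - (p.2.2.2 + ∑ q, p.2.2.1 q)
      omega
  · intro p hp p₂ hp₂ hpp
    rw [Finset.mem_coe, Finset.mem_filter, Finset.mem_sigma] at hp hp₂
    obtain ⟨⟨hp1, hp2⟩, hp3⟩ := hp
    obtain ⟨⟨hq1, hq2⟩, hq3⟩ := hp₂
    obtain ⟨hy1, hyD, hy3, hyh, hy4, hy5⟩ := hy _ hp1
    obtain ⟨hz1, hzD, hz3, hzh, hz4, hz5⟩ := hy _ hq1
    have hs1 := (facts hsS hy3 hy5 hp2).2.2.2.2.2.1
    have hs2 := (facts hsS hz3 hz5 hq2).2.2.2.2.2.1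
    obtain ⟨⟨k, t⟩, c⟩ := p
    obtain ⟨⟨k₂, t₂⟩, c₂⟩ := p₂
    simp only [Prod.mk.injEq] at hpp
    obtain ⟨e1, e2, e4, e5⟩ := hpp
    simp only at hp1 hq1 hp2 hq2 hp3 hq3 hy1 hyD hy3 hyh hy4 hy5 hz1 hzD hz3 hzh hz4 hz5
    simp only at hs1 hs2 e1 e2 e4 e5
    have h3 := hp3.trans hq3.symm
    have hu : c.2.2 = c₂.2.2 := by
      rw [e2] at e4 hs1
      omega
    obtain ⟨r1, r2⟩ := recover hsS hy3 hz3 hlo hy5 hz5 hp2 hq2 e1 e2 e4 (Or.inl hu)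
      (congrArg Prod.fst h3)
    subst r2
    have h4 : t + D (k, t) = t₂ + D (k₂, t₂) := congrArg Prod.snd h3
    have h6 : k = k₂ := by
      rw [← Multiset.cons_erase hy1, ← Multiset.cons_erase hz1, r1, e5]
    have h7 : t = t₂ := by omega
    subst h6
    subst h7
    rfl

end

end Vale.Agent.P181.DU.O244
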