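import Vale.Agent.P181.DU.H244.Cho

set_option autoImplicit false

/-!
# P181, DX (helper244): the move of the flow `FlowX`
-/

namespace Vale.Agent.P181.DU.O244

open Vale.Agent.P181.DG
open Vale.Agent.P181.DU.S317
open Vale.Agent.P181.SZC1 (double_count card_values blk blk_ge blk_lt blk_disj card_blk
  card_not_mem)

/-- the choices -/
noncomputable def Fc (n S s z lo hi : ℕ) (k k₀ : Multiset ℕ) (v : ℕ) :
    Finset (Σ _ : ℕ, (Σ _ : Fin n → ℕ, ℕ)) :=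
  (gaps k₀ z lo hi).sigma fun θ =>
    cho n S s (z * Multiset.card (up k₀ θ)) k (k₀ + (up k₀ θ).map (· - z)) v

theorem mem_Fc {n S s z lo hi v : ℕ} {k k₀ : Multiset ℕ}
    {c : Σ _ : ℕ, (Σ _ : Fin n → ℕ, ℕ)} :
    c ∈ Fc n S s z lo hi k k₀ v ↔ c.1 ∈ gaps k₀ z lo hi ∧
      c.2 ∈ cho n S s (z * Multiset.card (up k₀ c.1)) k (k₀ + (up k₀ c.1).map (· - z)) v := by
  unfold Fc
  rw [Finset.mem_sigma]

theorem card_Fc {n S s z lo hi v P : ℕ} {k k₀ : Multiset ℕ} (hk : ∀ x ∈ k, S ≤ x)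
    (hk₀ : ∀ x ∈ k₀, x ∈ k) (hP : (k.toFinset.filter (S ≤ ·)).card ≤ P)
    (hs : s * (n + 1) ≤ S) (hv : 2 * (n + 1) * S ≤ v) :
    (gaps k₀ z lo hi).card * (s - 4 * P) ^ (n + 1) ≤ (Fc n S s z lo hi k k₀ v).card := by
  classical
  have hkf : k.toFinset.card ≤ P := by
    refine (Finset.card_le_card fun x hx => ?_).trans hP
    rw [Finset.mem_filter]
    exact ⟨hx, hk x (Multiset.mem_toFinset.1 hx)⟩
  have h0 : k₀.toFinset.card ≤ P := by
    refine (Finset.card_le_card fun x hx => ?_).trans hkf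
    exact Multiset.mem_toFinset.2 (hk₀ x (Multiset.mem_toFinset.1 hx))
  unfold Fc
  rw [Finset.card_sigma]
  calc (gaps k₀ z lo hi).card * (s - 4 * P) ^ (n + 1)
      = ∑ _θ ∈ gaps k₀ z lo hi, (s - 4 * P) ^ (n + 1) := by
        rw [Finset.sum_const, smul_eq_mul]
    _ ≤ _ := by
        refine Finset.sum_le_sum fun θ _ => card_cho hP ?_ hs hv
        have h1 : ((up k₀ θ).map (· - z)).toFinset.card ≤ P := by
          have e : ((up k₀ θ).map (· - z)).toFinset ⊆ k₀.toFinset.image (· - z) := by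
            intro x hx
            rw [Multiset.mem_toFinset, Multiset.mem_map] at hx
            obtain ⟨y, hy, rfl⟩ := hx
            rw [Finset.mem_image]
            exact ⟨y, Multiset.mem_toFinset.2 (mem_up.1 hy).1, rfl⟩
          exact (Finset.card_le_card e).trans (Finset.card_image_le.trans h0)
        rw [Multiset.toFinset_add]
        refine (Finset.card_union_le _ _).trans ?_
        omega

/-- the target of a choice -/
noncomputable def tg {n : ℕ} (z y D t : ℕ) (k₀ : Multiset ℕ)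
    (c : Σ _ : ℕ, (Σ _ : Fin n → ℕ, ℕ)) : Multiset ℕ × ℕ :=
  ((y - D - (c.2.2 + ∑ q, c.2.1 q)) ::ₘ ((c.2.2 + z * Multiset.card (up k₀ c.1)) ::ₘ
    (Finset.univ.val.map c.2.1 + ((up k₀ c.1).map (· - z) + dwn k₀ c.1))), t + D)

theorem sum_map_sub {z : ℕ} (Y : Multiset ℕ) (h : ∀ y ∈ Y, z ≤ y) :
    (Y.map (· - z)).sum + z * Multiset.card Y = Y.sum := by
  induction Y using Multiset.induction_on with
  | empty => simp
  | cons y Y ih =>
    have h1 := ih fun x hx => h x (Multiset.mem_cons_of_mem hx)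
    have h2 := h y (Multiset.mem_cons_self _ _)
    rw [Multiset.map_cons, Multiset.sum_cons, Multiset.sum_cons, Multiset.card_cons]
    have h3 : z * (Multiset.card Y + 1) = z * Multiset.card Y + z := by ring
    omega

theorem mem_codes {n : ℕ} {f : Fin n → ℕ} {x : ℕ} (h : x ∈ Finset.univ.val.map f) :
    ∃ q, f q = x := by
  rw [Multiset.mem_map] at h
  obtain ⟨q, -, h⟩ := h
  exact ⟨q, h⟩

section
variable {n S s z lo hi y D t : ℕ} {k k₀ : Multiset ℕ} {c : Σ _ : ℕ, (Σ _ : Fin n → ℕ, ℕ)}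

/-- the facts about a choice -/
theorem facts (hsS : s * (n + 1) ≤ S) (hv : 2 * (n + 1) * S + 3 * S ≤ y - D)
    (hcu : ∀ θ, lo < θ → z * Multiset.card (up k₀ θ) ≤ S)
    (hc : c ∈ Fc n S s z lo hi k k₀ (y - D)) :
    (lo < c.1 ∧ c.1 ≤ hi) ∧ (∀ x ∈ k₀, ¬ (c.1 < x + z ∧ x ≤ c.1)) ∧
    (∀ q, S ≤ c.2.1 q ∧ c.2.1 q < 2 * S ∧ c.2.1 q ∉ k ∧ c.2.1 q < c.2.2) ∧
    (S ≤ c.2.2 ∧ c.2.2 < 2 * S ∧ c.2.2 ∉ k ∧
      c.2.2 + z * Multiset.card (up k₀ c.1) < 3 * S ∧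
      c.2.2 + z * Multiset.card (up k₀ c.1) ∉ k) ∧
    (3 * S ≤ y - D - (c.2.2 + ∑ q, c.2.1 q) ∧ c.2.2 + ∑ q, c.2.1 q ≤ y - D ∧
      y - D - (c.2.2 + ∑ q, c.2.1 q) ∉ k₀ ∧
      y - D - (c.2.2 + ∑ q, c.2.1 q) ∉ (up k₀ c.1).map (· - z)) := by
  rw [mem_Fc] at hc
  obtain ⟨hg, hc⟩ := hc
  have hsum := sum_cho hsS hc
  rw [mem_gaps] at hg
  rw [mem_cho] at hc
  obtain ⟨hc1, hc2, hc3, hc4, hc5⟩ := hc
  have hb := blk_lt (K := n + 1) hc2 (by omega) hsS
  have hcθ := hcu c.1 hg.1.1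
  refine ⟨hg.1, hg.2, fun q => ⟨blk_ge (hc1 q).1, blk_lt (K := n + 1) (hc1 q).1 (by omega) hsS,
    (hc1 q).2, ?_⟩, ⟨blk_ge hc2, hb, hc3, by omega, hc4⟩, ⟨by omega, by omega, ?_, ?_⟩⟩
  · have h1 := (Finset.mem_Ico.1 (hc1 q).1).2
    have h2 := (Finset.mem_Ico.1 hc2).1
    have h3 : ((q : ℕ) + 1) * s ≤ n * s := Nat.mul_le_mul_right _ q.2
    omega
  · exact fun h => hc5 (Multiset.mem_add.2 (Or.inl h))
  · exact fun h => hc5 (Multiset.mem_add.2 (Or.inr h))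

theorem nodup_codes
    (hc : c ∈ Fc n S s z lo hi k k₀ (y - D)) : (Finset.univ.val.map c.2.1).Nodup := by
  rw [mem_Fc, mem_cho] at hc
  refine Multiset.Nodup.map ?_ Finset.univ.nodup
  intro q q' h
  have h1 := (hc.2.1 q).1
  have h2 := (hc.2.1 q').1
  rw [h] at h1
  exact Fin.ext (blk_disj h1 h2)

/-- the inequality -/
theorem tg_le {g : Multiset ℕ → ℕ → ℕ} (hg : DisG S g) (hsh : ShG g) (hk : k = y ::ₘ k₀)
    (hsS : s * (n + 1) ≤ S) (hS1 : 1 ≤ S) (ht : 1 ≤ t) (hDy : D ≤ y)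
    (hv : 2 * (n + 1) * S + 3 * S ≤ y - D) (hD : D = 0 ∨ 2 ≤ D ∧ t ≤ y - D)
    (hlo : 3 * S + z ≤ lo) (hcu : ∀ θ, lo < θ → z * Multiset.card (up k₀ θ) ≤ S)
    (hc : c ∈ Fc n S s z lo hi k k₀ (y - D)) :
    g k t ≤ g (tg z y D t k₀ c).1 (tg z y D t k₀ c).2 := by
  obtain ⟨⟨f1, f2⟩, f3, f4, ⟨f5, f6, f7, f8, f9⟩, ⟨f10, f11, f12, f13⟩⟩ :=
    facts hsS hv hcu hc
  have hnd := nodup_codes hc
  obtain ⟨θ, ⟨f, u⟩⟩ := c
  simp only at f1 f2 f3 f4 f5 f6 f7 f8 f9 f10 f11 f12 f13 hnd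
  obtain ⟨cd, hcd⟩ : ∃ cd, cd = Finset.univ.val.map f := ⟨_, rfl⟩
  obtain ⟨x, hx⟩ : ∃ x, x = y - D - (u + ∑ q, f q) := ⟨_, rfl⟩
  have hsf : cd.sum = ∑ q, f q := by rw [hcd]; rfl
  have hmcd : ∀ v ∈ cd, S ≤ v ∧ v < 2 * S ∧ v ∉ k ∧ v < u := by
    intro v hv
    rw [hcd] at hv
    obtain ⟨q, rfl⟩ := mem_codes hv
    exact f4 q
  have hin : ∀ v ∈ k₀, v ∈ k := by
    intro v hv
    rw [hk]
    exact Multiset.mem_cons_of_mem hv
  have hyk : y ∈ k := by
    rw [hk]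
    exact Multiset.mem_cons_self _ _
  -- dissolving
  have h1 : g (y ::ₘ k₀) t ≤ g ((x ::ₘ (u ::ₘ cd)) + k₀) (t + D) := by
    refine hg k₀ (x ::ₘ (u ::ₘ cd)) y D t ht (by omega) ?_ ?_ ?_ ?_
    · rw [Multiset.nodup_cons, Multiset.nodup_cons]
      refine ⟨fun h => ?_, fun h => ?_, by rw [hcd]; exact hnd⟩
      · rcases Multiset.mem_cons.1 h with h | h
        · omega
        · have := (hmcd x h).2.1
          omega
      · have := (hmcd u h).2.2.2
        omega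
    · intro v hv
      rcases Multiset.mem_cons.1 hv with rfl | hv
      · exact ⟨by omega, by rw [hx]; exact f12, by omega⟩
      rcases Multiset.mem_cons.1 hv with rfl | hv
      · exact ⟨f5, fun h => f7 (hin _ h), fun h => f7 (h ▸ hyk)⟩
      · have h2 := hmcd v hv
        exact ⟨h2.1, fun h => h2.2.2.1 (hin _ h), fun h => h2.2.2.1 (h ▸ hyk)⟩
    · rw [Multiset.sum_cons, Multiset.sum_cons, hsf]
      omega
    · rcases hD with h | ⟨h, h'⟩
      · exact Or.inl h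
      · refine Or.inr ⟨h, ?_⟩
        rw [Multiset.sum_cons, Multiset.sum_cons, hsf]
        omega
  -- the joint shift
  have h2 : g (u ::ₘ (up k₀ θ + (x ::ₘ (cd + dwn k₀ θ)))) (t + D) ≤
      g ((u + z * Multiset.card (up k₀ θ)) ::ₘ ((up k₀ θ).map (· - z) +
        (x ::ₘ (cd + dwn k₀ θ)))) (t + D) := by
    refine hsh (up k₀ θ) (x ::ₘ (cd + dwn k₀ θ)) u z (t + D) (by omega) ?_ ?_
    · intro v hv
      have hv' := mem_up.1 hv
      refine ⟨by omega, fun h => ?_, by omega⟩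
      rcases Multiset.mem_cons.1 h with h | h
      · refine f13 ?_
        rw [← hx, ← h]
        exact Multiset.mem_map_of_mem _ hv
      rcases Multiset.mem_add.1 h with h | h
      · have := (hmcd _ h).2.1
        omega
      · have h3 := mem_dwn.1 h
        have h4 := f3 _ h3.1
        omega
    · intro h
      rcases Multiset.mem_cons.1 h with h | h
      · omega
      rcases Multiset.mem_add.1 h with h | h
      · have := (hmcd _ h).2.2.2
        omega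
      · exact f9 (hin _ (mem_dwn.1 h).1)
  have e1 : (x ::ₘ (u ::ₘ cd)) + k₀ = u ::ₘ (up k₀ θ + (x ::ₘ (cd + dwn k₀ θ))) := by
    conv_lhs => rw [← up_add_dwn k₀ θ]
    simp only [← Multiset.singleton_add]
    abel
  have e2 : (u + z * Multiset.card (up k₀ θ)) ::ₘ ((up k₀ θ).map (· - z) +
        (x ::ₘ (cd + dwn k₀ θ))) = (tg z y D t k₀ ⟨θ, ⟨f, u⟩⟩).1 := by
    unfold tg
    simp only
    rw [← hx, ← hcd]
    simp only [← Multiset.singleton_add]
    abel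
  rw [e1] at h1
  rw [e2] at h2
  rw [hk]
  exact h1.trans h2

/-- the target is good -/
theorem tg_good {a b w : ℕ} (hk : k = y ::ₘ k₀) (hkS : ∀ x ∈ k, S ≤ x) (hkb : ∀ x ∈ k, x ≤ b)
    (hkw : k.sum ≤ w) (hsS : s * (n + 1) ≤ S)
    (hv : 2 * (n + 1) * S + 3 * S ≤ y - D) (hlo : 3 * S + z ≤ lo) (hhi : hi ≤ a)
    (hz : b = a + z) (hz1 : 1 ≤ z) (hzS : z ≤ S)
    (hcard : Multiset.card k + t + (n + 1) + D = a + 1) (htD : t + D ≤ a)
    (hcu : ∀ θ, lo < θ → z * Multiset.card (up k₀ θ) ≤ S)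
    (hc : c ∈ Fc n S s z lo hi k k₀ (y - D)) :
    ((tg z y D t k₀ c).1.sum ≤ w ∧ ∀ x ∈ (tg z y D t k₀ c).1, S ≤ x) ∧
      (tg z y D t k₀ c).2 < a + 2 ∧ GoodW a b (tg z y D t k₀ c) := by
  obtain ⟨⟨f1, f2⟩, f3, f4, ⟨f5, f6, f7, f8, f9⟩, ⟨f10, f11, f12, f13⟩⟩ :=
    facts hsS hv hcu hc
  obtain ⟨θ, ⟨f, u⟩⟩ := c
  simp only at f1 f2 f3 f4 f5 f6 f7 f8 f9 f10 f11 f12 f13
  have hyk : y ∈ k := by
    rw [hk]
    exact Multiset.mem_cons_self _ _
  have hyb := hkb y hyk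
  have hall : ∀ x ∈ (tg z y D t k₀ ⟨θ, ⟨f, u⟩⟩).1, S ≤ x ∧ x ≤ a := by
    intro x hx
    unfold tg at hx
    simp only [Multiset.mem_cons, Multiset.mem_add] at hx
    rcases hx with rfl | rfl | hx | hx | hx
    · omega
    · omega
    · obtain ⟨q, rfl⟩ := mem_codes hx
      have := f4 q
      omega
    · rw [Multiset.mem_map] at hx
      obtain ⟨v, hv', rfl⟩ := hx
      have h1 := mem_up.1 hv'
      have h2 := hkb v (by rw [hk]; exact Multiset.mem_cons_of_mem h1.1)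
      omega
    · have h1 := mem_dwn.1 hx
      have h2 := hkS x (by rw [hk]; exact Multiset.mem_cons_of_mem h1.1)
      omega
  have hsum : (tg z y D t k₀ ⟨θ, ⟨f, u⟩⟩).1.sum ≤ w := by
    have h1 := sum_map_sub (z := z) (up k₀ θ) (fun v hv' => by
      have := (mem_up.1 hv').2
      omega)
    have h2 : k₀.sum = (up k₀ θ).sum + (dwn k₀ θ).sum := by
      conv_lhs => rw [← up_add_dwn k₀ θ]
      rw [Multiset.sum_add]
    have h3 : k.sum = y + k₀.sum := by rw [hk, Multiset.sum_cons]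
    have h4 : (Finset.univ.val.map f).sum = ∑ q, f q := rfl
    unfold tg
    simp only [Multiset.sum_cons, Multiset.sum_add, h4]
    omega
  have hcd : Multiset.card (tg z y D t k₀ ⟨θ, ⟨f, u⟩⟩).1 = Multiset.card k + (n + 1) := by
    have h2 : Multiset.card k₀ = Multiset.card (up k₀ θ) + Multiset.card (dwn k₀ θ) := by
      conv_lhs => rw [← up_add_dwn k₀ θ]
      rw [Multiset.card_add]
    have h3 : Multiset.card k = Multiset.card k₀ + 1 := by rw [hk, Multiset.card_cons]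
    have h4 : Multiset.card (Finset.univ.val.map f) = n := by simp
    unfold tg
    simp only [Multiset.card_cons, Multiset.card_add, Multiset.card_map]
    rw [Multiset.card_map] at h4
    omega
  have h2 : (tg z y D t k₀ ⟨θ, ⟨f, u⟩⟩).2 = t + D := rfl
  refine ⟨⟨hsum, fun x hx => (hall x hx).1⟩, by omega, fun x hx => (hall x hx).2, ?_, ?_, ?_⟩
  · omega
  · omega
  · omega

end

end Vale.Agent.P181.DU.O244
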